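import Mathlib

namespace Vale.Agent.P195

open Matrix

theorem all6 {motive : Fin 6 → Prop} (h0 : motive 0) (h1 : motive 1) (h2 : motive 2) (h3 : motive 3)
    (h4 : motive 4) (h5 : motive 5) (i : Fin 6) : motive i := by
  fin_cases i
  exacts [h0, h1, h2, h3, h4, h5]

variable {S : Type} [Ring S]

/-- the relations satisfied by the blocks of the resolution -/
structure Rel (s t G : Fin 2 → S) (η : S) : Prop where
  ss : s 1 * s 0 = s 0 * s 1
  tt : t 1 * t 0 = t 0 * t 1
  st0 : s 0 * t 1 = t 1 * s 0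
  st1 : s 1 * t 0 = t 0 * s 1
  st : ∀ i, s i * t i = t i * s i - η
  Gs : ∀ j i, G j * s i = t i * G j
  Gt : ∀ j i, G j * t i = s i * G j
  G0 : G 1 * (G 0 * G 0) = G 0 * (G 0 * G 1) - η * G 1
  G1 : G 1 * (G 1 * G 0) = G 0 * (G 1 * G 1) + η * G 0

def d0 (s t : Fin 2 → S) : Matrix (Fin 6) (Fin 6) S :=
  !![0, 0, 0, 0, 0, 0; s 0, 0, 0, 0, 0, 0; s 1, 0, 0, 0, 0, 0;
    0, t 0 * s 1, -(t 0 * s 0), 0, 0, 0; 0, -(t 1 * s 1), t 1 * s 0, 0, 0, 0; 0, 0, 0, t 1, t 0, 0]

def d1 (s G : Fin 2 → S) : Matrix (Fin 6) (Fin 6) S :=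
  !![0, 0, 0, 0, 0, 0; -G 0, 0, 0, 0, 0, 0; -G 1, 0, 0, 0, 0, 0;
    0, s 1 * G 0 - s 0 * G 1 - G 1 * G 0, G 0 * G 0, 0, 0, 0;
    0, G 1 * G 1, s 0 * G 1 - s 1 * G 0 - G 0 * G 1, 0, 0, 0; 0, 0, 0, G 1, G 0, 0]

def dd (s t G : Fin 2 → S) : Matrix (Fin 6) (Fin 6) S :=
  !![0, 0, 0, 0, 0, 0; s 0 - G 0, 0, 0, 0, 0, 0; s 1 - G 1, 0, 0, 0, 0, 0;
    0, t 0 * s 1 + (s 1 * G 0 - s 0 * G 1 - G 1 * G 0), G 0 * G 0 - t 0 * s 0, 0, 0, 0;
    0, G 1 * G 1 - t 1 * s 1, t 1 * s 0 + (s 0 * G 1 - s 1 * G 0 - G 0 * G 1), 0, 0, 0;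
    0, 0, 0, t 1 + G 1, t 0 + G 0, 0]

theorem dd_eq (s t G : Fin 2 → S) : dd s t G = d0 s t + d1 s G := by
  ext i j; induction i using all6 <;> induction j using all6 <;> simp [dd, d0, d1, sub_eq_add_neg, add_comm]

def kap (s t G : Fin 2 → S) : Matrix (Fin 6) (Fin 6) S :=
  !![0, t 0 + G 0, t 1 + G 1, 0, 0, 0; 0, 0, 0, 0, -1, 0; 0, 0, 0, -1, 0, 0;
    0, 0, 0, 0, 0, s 1 - G 1; 0, 0, 0, 0, 0, s 0 - G 0; 0, 0, 0, 0, 0, 0]

def eps : Matrix (Fin 6) (Fin 6) S :=
  !![0, 0, 0, 0, 0, 0; 0, 0, 0, 0, 0, 0; 0, 0, 0, 0, 0, 0; 0, 0, 0, 0, 0, 0; 0, 0, 0, 0, 0, 0;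
    1, 0, 0, 0, 0, 0]

def sx (p q : S) : Matrix (Fin 6) (Fin 6) S :=
  !![0, 0, 0, 0, 0, 0; 0, 0, 0, 0, 0, 0; 0, 0, 0, 0, 0, 0; 0, 0, 0, 0, 0, 0; p, 0, 0, 0, 0, 0;
    0, -q, 0, 0, 0, 0]

def sy (p q : S) : Matrix (Fin 6) (Fin 6) S :=
  !![0, 0, 0, 0, 0, 0; 0, 0, 0, 0, 0, 0; 0, 0, 0, 0, 0, 0; p, 0, 0, 0, 0, 0; 0, 0, 0, 0, 0, 0;
    0, 0, -q, 0, 0, 0]

theorem eps_eps : (eps * eps : Matrix _ _ S) = 0 := by
  ext i j; induction i using all6 <;> induction j using all6  <;>
    simp only [eps, Matrix.mul_apply,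
      Fin.sum_univ_six, Matrix.of_apply, cons_val', cons_val, cons_val_fin_one, cons_val_zero,
      cons_val_one, mul_zero, zero_mul, add_zero, zero_add, Matrix.zero_apply]

theorem eps_dd (s t G : Fin 2 → S) : eps * dd s t G = 0 := by
  ext i j; induction i using all6 <;> induction j using all6  <;>
    simp only [eps, dd, Matrix.mul_apply,
      Fin.sum_univ_six, Matrix.of_apply, cons_val', cons_val, cons_val_fin_one, cons_val_zero,
      cons_val_one, mul_zero, zero_mul, add_zero, zero_add, Matrix.zero_apply]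

theorem dd_eps (s t G : Fin 2 → S) : dd s t G * eps = 0 := by
  ext i j; induction i using all6 <;> induction j using all6  <;>
    simp only [eps, dd, Matrix.mul_apply,
      Fin.sum_univ_six, Matrix.of_apply, cons_val', cons_val, cons_val_fin_one, cons_val_zero,
      cons_val_one, mul_zero, zero_mul, add_zero, zero_add, Matrix.zero_apply]

theorem eps_sx (p q : S) : eps * sx p q = 0 := by
  ext i j; induction i using all6 <;> induction j using all6  <;>
    simp only [eps, sx, Matrix.mul_apply,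
      Fin.sum_univ_six, Matrix.of_apply, cons_val', cons_val, cons_val_fin_one, cons_val_zero,
      cons_val_one, mul_zero, zero_mul, add_zero, zero_add, Matrix.zero_apply]

theorem sx_eps (p q : S) : sx p q * eps = 0 := by
  ext i j; induction i using all6 <;> induction j using all6  <;>
    simp only [eps, sx, Matrix.mul_apply,
      Fin.sum_univ_six, Matrix.of_apply, cons_val', cons_val, cons_val_fin_one, cons_val_zero,
      cons_val_one, mul_zero, zero_mul, add_zero, zero_add, Matrix.zero_apply]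

theorem eps_sy (p q : S) : eps * sy p q = 0 := by
  ext i j; induction i using all6 <;> induction j using all6  <;>
    simp only [eps, sy, Matrix.mul_apply,
      Fin.sum_univ_six, Matrix.of_apply, cons_val', cons_val, cons_val_fin_one, cons_val_zero,
      cons_val_one, mul_zero, zero_mul, add_zero, zero_add, Matrix.zero_apply]

theorem sy_eps (p q : S) : sy p q * eps = 0 := by
  ext i j; induction i using all6 <;> induction j using all6  <;>
    simp only [eps, sy, Matrix.mul_apply,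
      Fin.sum_univ_six, Matrix.of_apply, cons_val', cons_val, cons_val_fin_one, cons_val_zero,
      cons_val_one, mul_zero, zero_mul, add_zero, zero_add, Matrix.zero_apply]

theorem dd_sx {s t G : Fin 2 → S} {p q : S} (h1 : q * s 0 + t 0 * p = 1) (h2 : G 0 * p = q * G 0) :
    dd s t G * sx p q - sx p q * dd s t G = eps := by
  ext i j; induction i using all6 <;> induction j using all6  <;>
    simp only [eps, sx, dd, Matrix.sub_apply, sub_zero, sub_self, neg_mul, sub_neg_eq_add, Matrix.mul_apply,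
      Fin.sum_univ_six, Matrix.of_apply, cons_val', cons_val, cons_val_fin_one, cons_val_zero,
      cons_val_one, mul_zero, zero_mul, add_zero, zero_add, Matrix.zero_apply]
  rw [← h1, add_mul, mul_sub, h2]; abel

theorem dd_sy {s t G : Fin 2 → S} {p q : S} (h1 : q * s 1 + t 1 * p = 1) (h2 : G 1 * p = q * G 1) :
    dd s t G * sy p q - sy p q * dd s t G = eps := by
  ext i j; induction i using all6 <;> induction j using all6  <;>
    simp only [eps, sy, dd, Matrix.sub_apply, sub_zero, sub_self, neg_mul, sub_neg_eq_add, Matrix.mul_apply,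
      Fin.sum_univ_six, Matrix.of_apply, cons_val', cons_val, cons_val_fin_one, cons_val_zero,
      cons_val_one, mul_zero, zero_mul, add_zero, zero_add, Matrix.zero_apply]
  rw [← h1, add_mul, mul_sub, h2]; abel

theorem thth {s t G p q : Fin 2 → S} (θ : Fin 2 → S →+ S)
    (hm : ∀ i u v, θ i (u * v) = θ i u * v + u * θ i v) (hG : ∀ i j, θ i (G j) = 0)
    (hs : ∀ i j, θ i (s j) = if i = j then p i else 0)
    (ht : ∀ i j, θ i (t j) = if i = j then q i else 0)
    (h1 : ∀ i, q i * s i + t i * p i = 1) (h2 : G 1 * p 1 = q 1 * G 1) (h3 : p 0 * q 1 = 0)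
    (h4 : q 0 * p 1 = 0) (h5 : t 1 * p 0 * p 1 = p 0) (h6 : q 0 * (q 1 * s 0) = q 1) :
    (dd s t G).map (θ 0) * (dd s t G).map (θ 1) = sx (p 0) (q 0) - sy (p 1) (q 1) := by
  have e0 : (dd s t G).map (θ 0) = !![0, 0, 0, 0, 0, 0; p 0, 0, 0, 0, 0, 0; 0, 0, 0, 0, 0, 0;
      0, q 0 * s 1 - p 0 * G 1, -1, 0, 0, 0; 0, 0, t 1 * p 0 + p 0 * G 1, 0, 0, 0;
      0, 0, 0, 0, q 0, 0] := by
    ext i j; induction i using all6 <;> induction j using all6 <;> simp [dd, hm, hG, hs, ht, h1, sub_eq_add_neg]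
  have e1 : (dd s t G).map (θ 1) = !![0, 0, 0, 0, 0, 0; 0, 0, 0, 0, 0, 0; p 1, 0, 0, 0, 0, 0;
      0, t 0 * p 1 + p 1 * G 0, 0, 0, 0, 0; 0, -1, q 1 * s 0 - p 1 * G 0, 0, 0, 0;
      0, 0, 0, q 1, 0, 0] := by
    ext i j; induction i using all6 <;> induction j using all6 <;> simp [dd, hm, hG, hs, ht, h1, sub_eq_add_neg]
  rw [e0, e1]
  ext i j; induction i using all6 <;> induction j using all6  <;>
    simp only [sx, sy, Matrix.sub_apply, sub_zero, zero_sub, neg_mul, mul_neg, one_mul, mul_one, neg_neg, neg_zero, Matrix.mul_apply,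
      Fin.sum_univ_six, Matrix.of_apply, cons_val', cons_val, cons_val_fin_one, cons_val_zero,
      cons_val_one, mul_zero, zero_mul, add_zero, zero_add, Matrix.zero_apply]
  · rw [add_mul, h5, mul_assoc, h2, ← mul_assoc, h3]; simp
  · rw [mul_sub, h6, ← mul_assoc, h4]; simp

namespace Rel

variable {s t G : Fin 2 → S} {η : S} (h : Rel s t G η)
include h

theorem ss' (z : S) : s 1 * (s 0 * z) = s 0 * (s 1 * z) := by rw [← mul_assoc, h.ss, mul_assoc]
theorem tt' (z : S) : t 1 * (t 0 * z) = t 0 * (t 1 * z) := by rw [← mul_assoc, h.tt, mul_assoc]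
theorem st0' (z : S) : s 0 * (t 1 * z) = t 1 * (s 0 * z) := by rw [← mul_assoc, h.st0, mul_assoc]
theorem st1' (z : S) : s 1 * (t 0 * z) = t 0 * (s 1 * z) := by rw [← mul_assoc, h.st1, mul_assoc]
theorem st' (i : Fin 2) (z : S) : s i * (t i * z) = t i * (s i * z) - η * z := by
  rw [← mul_assoc, h.st, sub_mul, mul_assoc]
theorem Gs' (j i : Fin 2) (z : S) : G j * (s i * z) = t i * (G j * z) := by
  rw [← mul_assoc, h.Gs, mul_assoc]
theorem Gt' (j i : Fin 2) (z : S) : G j * (t i * z) = s i * (G j * z) := by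
  rw [← mul_assoc, h.Gt, mul_assoc]

theorem dd_dd : dd s t G * dd s t G = 0 := by
  ext i j
  induction i using all6 <;> induction j using all6  <;>
    simp only [dd, Matrix.mul_apply,
      Fin.sum_univ_six, Matrix.of_apply, cons_val', cons_val, cons_val_fin_one, cons_val_zero,
      cons_val_one, mul_zero, zero_mul, add_zero, zero_add, Matrix.zero_apply] <;>
    simp only [mul_add, add_mul, mul_sub, sub_mul, mul_assoc, h.ss, h.tt, h.st0, h.st1, h.st, h.Gs,
      h.Gt, h.G0, h.G1, h.ss', h.tt', h.st0', h.st1', h.st', h.Gs', h.Gt'] <;> abel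

theorem dd_kap : dd s t G * kap s t G + kap s t G * dd s t G =
    diagonal fun σ => t 0 * s 0 + t 1 * s 1 - (G 0 * G 0 + G 1 * G 1) - ![0, η, η, η, η, 0] σ := by
  ext i j
  induction i using all6 <;> induction j using all6 <;>
    simp only [dd, kap, Matrix.add_apply, diagonal_apply, Fin.reduceEq, if_true, if_false, mul_neg, neg_mul,
      mul_one, one_mul, reduceIte, Matrix.mul_apply,
      Fin.sum_univ_six, Matrix.of_apply, cons_val', cons_val, cons_val_fin_one, cons_val_zero,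
      cons_val_one, mul_zero, zero_mul, add_zero, zero_add, Matrix.zero_apply] <;>
    (try simp only [mul_add, add_mul, mul_sub, sub_mul, mul_assoc, h.ss, h.tt, h.st0, h.st1, h.st, h.Gs,
      h.Gt, h.G0, h.G1, h.ss', h.tt', h.st0', h.st1', h.st', h.Gs', h.Gt']) <;> abel

end Rel

end Vale.Agent.P195
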